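import Vale.Agent.P028.H79.Tree

/-!
# The mass transference principle on the line: Cantor construction and content (helper79)
-/

set_option linter.all false

namespace Vale.Agent.P028.H79

open MeasureTheory Set Filter Topology
open scoped ENNReal

variable {s : ℝ} {A B : Set ℝ} {j n : ℕ} {k : ℤ} {x : ℝ}

theorem isCompact_Dc (n : ℕ) (k : ℤ) : IsCompact (Dc n k) := isCompact_Icc

/-- one step of the construction -/
theorem step {F U : Set ℝ} (hF : IsCompact F) (hU : ∀ n k, Mi s U n k = g s n) {m0 : ℝ≥0∞}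
    {j n0 : ℕ} {k0 : ℤ} (h : m0 < MM s F j n0 k0) :
    ∃ (F' : Set ℝ) (j' : ℕ), IsCompact F' ∧ F' ⊆ F ∩ U ∧ m0 < MM s F' j' n0 k0 := by
  have h1 : m0 < Mi s (F ∩ U) n0 k0 := h.trans_le (MM_le_Mi_inter hU j n0 k0)
  obtain ⟨j', hj'⟩ := lt_iSup_iff.1 h1
  set I : Set (ℕ × ℤ) := {p | p.1 ≤ j' ∧ Dc (n0 + p.1) p.2 ⊆ F ∩ U} with hI
  have hIfin : I.Finite := by
    obtain ⟨M, hM⟩ := hF.isBounded.subset_closedBall 0
    have hsub : I ⊆ ⋃ i ∈ Finset.range (j' + 1),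
        (fun k : ℤ => (i, k)) '' (Icc ⌊-(M * 2 ^ (n0 + i))⌋ ⌈M * 2 ^ (n0 + i)⌉) := by
      rintro ⟨i, k⟩ ⟨h1, h2⟩
      simp only [Finset.mem_range, mem_iUnion, mem_image, exists_prop]
      refine ⟨i, by simpa [Nat.lt_succ_iff] using h1, k, ?_, rfl⟩
      have h3 : ((k : ℝ) / 2 ^ (n0 + i)) ∈ Dc (n0 + i) k := by
        unfold Dc
        exact left_mem_Icc.2 (by gcongr; linarith)
      have h4 := hM ((h2 h3).1)
      rw [Metric.mem_closedBall, Real.dist_eq, sub_zero, abs_le] at h4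
      have h5 := two_pow_pos (n0 + i)
      have h6 : -(M * 2 ^ (n0 + i)) ≤ (k : ℝ) := by
        have := h4.1
        rw [le_div_iff₀ h5] at this
        linarith
      have h7 : (k : ℝ) ≤ M * 2 ^ (n0 + i) := by
        have := h4.2
        rw [div_le_iff₀ h5] at this
        linarith
      constructor
      · have := (Int.floor_le (-(M * 2 ^ (n0 + i)))).trans h6
        exact_mod_cast this
      · have := h7.trans (Int.le_ceil (M * 2 ^ (n0 + i)))
        exact_mod_cast this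
    refine Finite.subset ?_ hsub
    exact (Finset.range (j' + 1)).finite_toSet.biUnion fun i _ => (finite_Icc _ _).image _
  refine ⟨⋃ p ∈ I, Dc (n0 + p.1) p.2, j', hIfin.isCompact_biUnion fun p _ => isCompact_Dc _ _,
    iUnion₂_subset fun p hp => hp.2, hj'.trans_le (MM_le_of j' n0 k0 ?_)⟩
  intro i hi k' hk'
  exact subset_biUnion_of_mem (u := fun p : ℕ × ℤ => Dc (n0 + p.1) p.2)
    (show (i, k') ∈ I from ⟨hi, hk'⟩)

theorem rpow_sum_le {ι : Type*} (hs : 0 < s) (hs1 : s ≤ 1) (T : Finset ι) (f : ι → ℝ≥0∞) :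
    (∑ i ∈ T, f i) ^ s ≤ ∑ i ∈ T, f i ^ s := by
  classical
  induction T using Finset.induction_on with
  | empty => simp [ENNReal.zero_rpow_of_pos hs]
  | insert a T ha ih =>
    rw [Finset.sum_insert ha, Finset.sum_insert ha]
    exact (ENNReal.rpow_add_le_add_rpow _ _ hs.le hs1).trans (add_le_add le_rfl ih)

theorem floor_half' (n : ℕ) (x : ℝ) : ⌊(2 : ℝ) ^ n * x⌋ = ⌊(2 : ℝ) ^ (n + 1) * x⌋ / 2 := by
  rcases floor_succ n x with h | h <;> omega

theorem floor_eq_of' (d : ℕ) (n : ℕ) {x y : ℝ}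
    (h : ⌊(2 : ℝ) ^ (n + d) * x⌋ = ⌊(2 : ℝ) ^ (n + d) * y⌋) :
    ⌊(2 : ℝ) ^ n * x⌋ = ⌊(2 : ℝ) ^ n * y⌋ := by
  induction d with
  | zero => exact h
  | succ d ih =>
    apply ih
    rw [floor_half', floor_half' (n + d) y]
    exact congrArg (· / 2) h

open Classical in
/-- the members of the family which meet the interval -/
noncomputable def meet {ι : Type*} (T : Finset ι) (Q : ι → ℕ × ℤ) (n : ℕ) (k : ℤ) : Finset ι :=
  T.filter fun i => (Dy (Q i).1 (Q i).2 ∩ Dy n k).Nonempty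

theorem mem_meet {ι : Type*} {T : Finset ι} {Q : ι → ℕ × ℤ} {i : ι} :
    i ∈ meet T Q n k ↔ i ∈ T ∧ (Dy (Q i).1 (Q i).2 ∩ Dy n k).Nonempty := by
  classical
  unfold meet
  rw [Finset.mem_filter]

/-- the cheapest cover is at most any cover -/
theorem cov {ι : Type*} (hs : 0 < s) (hs1 : s ≤ 1) (T : Finset ι) (Q : ι → ℕ × ℤ) (j : ℕ) :
    ∀ (n : ℕ) (k : ℤ), A ∩ Dy n k ⊆ (⋃ i ∈ T, Dy (Q i).1 (Q i).2) →
      MM s A j n k ≤ ∑ i ∈ meet T Q n k, g s (Q i).1 := by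
  classical
  have hf : ∀ (n : ℕ) (k : ℤ), Dc n k ⊆ A → A ∩ Dy n k ⊆ (⋃ i ∈ T, Dy (Q i).1 (Q i).2) →
      g s n ≤ ∑ i ∈ meet T Q n k, g s (Q i).1 := by
    intro n k hA hT
    have h1 : Dy n k ⊆ ⋃ i ∈ meet T Q n k, Dy (Q i).1 (Q i).2 := by
      intro y hy
      have h2 := hT ⟨hA (Dy_subset_Dc _ _ hy), hy⟩
      simp only [mem_iUnion, exists_prop] at h2 ⊢
      obtain ⟨i, hi, hyi⟩ := h2
      exact ⟨i, mem_meet.2 ⟨hi, y, hyi, hy⟩, hyi⟩
    have h3 : ENNReal.ofReal (L n) ≤ ∑ i ∈ meet T Q n k, ENNReal.ofReal (L (Q i).1) := by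
      rw [← volume_Dy n k]
      refine (measure_mono h1).trans ((measure_biUnion_finset_le _ _).trans ?_)
      exact Finset.sum_le_sum fun i _ => (volume_Dy _ _).le
    exact (ENNReal.rpow_le_rpow h3 hs.le).trans (rpow_sum_le hs hs1 _ _)
  induction j with
  | zero =>
    intro n k hT
    by_cases h : Dc n k ⊆ A
    · rw [MM_of_sub h]
      exact hf n k h hT
    · rw [MM_zero_of_not h]
      exact bot_le
  | succ j ih =>
    intro n k hT
    by_cases h : Dc n k ⊆ A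
    · rw [MM_of_sub h]
      exact hf n k h hT
    · by_cases hlev : ∃ i ∈ meet T Q n k, (Q i).1 ≤ n
      · obtain ⟨i, hi, hin⟩ := hlev
        refine (MM_le _ _ _).trans ((g_anti hs.le hin).trans ?_)
        exact Finset.single_le_sum (f := fun i => g s (Q i).1) (fun _ _ => bot_le) hi
      · push Not at hlev
        rw [MM_succ_of_not h]
        refine (min_le_right _ _).trans ?_
        have hl : Dy (n + 1) (2 * k) ⊆ Dy n k := by
          rw [Dy_split n k]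
          exact subset_union_left
        have hr : Dy (n + 1) (2 * k + 1) ⊆ Dy n k := by
          rw [Dy_split n k]
          exact subset_union_right
        have h1 := ih (n + 1) (2 * k) ((inter_subset_inter_right A hl).trans hT)
        have h2 := ih (n + 1) (2 * k + 1) ((inter_subset_inter_right A hr).trans hT)
        refine (add_le_add h1 h2).trans ?_
        have hd : Disjoint (meet T Q (n + 1) (2 * k)) (meet T Q (n + 1) (2 * k + 1)) := by
          rw [Finset.disjoint_left]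
          intro i hi hi'
          obtain ⟨hiT, y, hy, hy'⟩ := mem_meet.1 hi
          obtain ⟨_, z, hz, hz'⟩ := mem_meet.1 hi'
          have hlt : n < (Q i).1 := hlev i (mem_meet.2 ⟨hiT, y, hy, hl hy'⟩)
          have e : ⌊(2 : ℝ) ^ (n + 1) * y⌋ = ⌊(2 : ℝ) ^ (n + 1) * z⌋ := by
            refine floor_eq_of' ((Q i).1 - (n + 1)) (n + 1) ?_
            rw [Nat.add_sub_cancel' hlt]
            exact Eq.trans (show ⌊(2 : ℝ) ^ (Q i).1 * y⌋ = (Q i).2 from hy)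
              (show ⌊(2 : ℝ) ^ (Q i).1 * z⌋ = (Q i).2 from hz).symm
          rw [show ⌊(2 : ℝ) ^ (n + 1) * y⌋ = 2 * k from hy',
            show ⌊(2 : ℝ) ^ (n + 1) * z⌋ = 2 * k + 1 from hz'] at e
          omega
        rw [← Finset.sum_union hd]
        refine Finset.sum_le_sum_of_subset ?_
        intro i hi
        rcases Finset.mem_union.1 hi with hi | hi
        · obtain ⟨hiT, y, hy, hy'⟩ := mem_meet.1 hi
          exact mem_meet.2 ⟨hiT, y, hy, hl hy'⟩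
        · obtain ⟨hiT, y, hy, hy'⟩ := mem_meet.1 hi
          exact mem_meet.2 ⟨hiT, y, hy, hr hy'⟩

/-- covers by short intervals -/
theorem cover_lower (hs : 0 < s) (hs1 : s ≤ 1) {F : Set ℝ} (T : Finset ℕ) (z e : ℕ → ℝ)
    (he : ∀ i, 0 < e i ∧ e i ≤ 1) (hT : F ⊆ ⋃ i ∈ T, Ioo (z i - e i) (z i + e i)) :
    MM s F j n k ≤ 6 * ∑ i ∈ T, ENNReal.ofReal (e i) ^ s := by
  classical
  have hm : ∀ i, ∃ m : ℕ, (1 / 2 : ℝ) ^ (m + 1) < e i ∧ e i ≤ (1 / 2) ^ m := fun i =>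
    exists_nat_pow_near_of_lt_one (he i).1 (he i).2 (by norm_num) (by norm_num)
  choose m hm1 hm2 using hm
  set Q : ℕ × Fin 3 → ℕ × ℤ := fun p => (m p.1, ⌊(2 : ℝ) ^ (m p.1) * z p.1⌋ + (p.2 : ℤ) - 1)
    with hQ
  have h1 : F ∩ Dy n k ⊆ ⋃ p ∈ T ×ˢ (Finset.univ : Finset (Fin 3)), Dy (Q p).1 (Q p).2 := by
    rintro y ⟨hyF, -⟩
    have h2 := hT hyF
    simp only [mem_iUnion, exists_prop] at h2 ⊢
    obtain ⟨i, hi, hy1, hy2⟩ := h2
    have h3 : (2 : ℝ) ^ m i * e i ≤ 1 := by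
      have h4 : (2 : ℝ) ^ m i * e i ≤ 2 ^ m i * (1 / 2) ^ m i := by
        gcongr
        exact hm2 i
      rw [← mul_pow] at h4
      norm_num at h4
      exact h4
    have h5 := two_pow_pos (m i)
    have h6 : (2 : ℝ) ^ m i * y < 2 ^ m i * z i + 1 := by nlinarith
    have h7 : (2 : ℝ) ^ m i * z i - 1 < 2 ^ m i * y := by nlinarith
    have h8 := Int.floor_le ((2 : ℝ) ^ m i * y)
    have h9 := Int.lt_floor_add_one ((2 : ℝ) ^ m i * y)
    have h10 := Int.floor_le ((2 : ℝ) ^ m i * z i)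
    have h11 := Int.lt_floor_add_one ((2 : ℝ) ^ m i * z i)
    have h12 : ⌊(2 : ℝ) ^ m i * y⌋ < ⌊(2 : ℝ) ^ m i * z i⌋ + 2 := by
      have : (⌊(2 : ℝ) ^ m i * y⌋ : ℝ) < ⌊(2 : ℝ) ^ m i * z i⌋ + 2 := by linarith
      exact_mod_cast this
    have h13 : ⌊(2 : ℝ) ^ m i * z i⌋ < ⌊(2 : ℝ) ^ m i * y⌋ + 2 := by
      have : (⌊(2 : ℝ) ^ m i * z i⌋ : ℝ) < ⌊(2 : ℝ) ^ m i * y⌋ + 2 := by linarith
      exact_mod_cast this
    have h14 : ∃ a : Fin 3, ⌊(2 : ℝ) ^ m i * y⌋ = ⌊(2 : ℝ) ^ m i * z i⌋ + (a : ℤ) - 1 := by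
      have : ⌊(2 : ℝ) ^ m i * y⌋ = ⌊(2 : ℝ) ^ m i * z i⌋ - 1 ∨
          ⌊(2 : ℝ) ^ m i * y⌋ = ⌊(2 : ℝ) ^ m i * z i⌋ ∨
          ⌊(2 : ℝ) ^ m i * y⌋ = ⌊(2 : ℝ) ^ m i * z i⌋ + 1 := by omega
      rcases this with h | h | h
      · exact ⟨0, by rw [h]; simp⟩
      · exact ⟨1, by rw [h]; simp⟩
      · exact ⟨2, by rw [h]; simp; ring⟩
    obtain ⟨a, ha⟩ := h14
    exact ⟨(i, a), Finset.mem_product.2 ⟨hi, Finset.mem_univ _⟩, ha⟩
  refine (cov hs hs1 (T ×ˢ (Finset.univ : Finset (Fin 3))) Q j n k h1).trans ?_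
  have h2 : ∑ p ∈ meet (T ×ˢ (Finset.univ : Finset (Fin 3))) Q n k, g s (Q p).1 ≤
      ∑ p ∈ T ×ˢ (Finset.univ : Finset (Fin 3)), g s (Q p).1 :=
    Finset.sum_le_sum_of_subset fun p hp => (mem_meet.1 hp).1
  refine h2.trans ?_
  rw [Finset.sum_product, Finset.mul_sum]
  refine Finset.sum_le_sum fun i _ => ?_
  have h3 : g s (m i) ≤ 2 * ENNReal.ofReal (e i) ^ s := by
    have h4 : ENNReal.ofReal (L (m i)) ≤ 2 * ENNReal.ofReal (e i) := by
      rw [show (2 : ℝ≥0∞) = ENNReal.ofReal 2 by norm_num, ← ENNReal.ofReal_mul (by norm_num)]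
      refine ENNReal.ofReal_le_ofReal ?_
      have := hm1 i
      unfold L
      rw [pow_succ] at this
      linarith
    unfold g
    refine (ENNReal.rpow_le_rpow h4 hs.le).trans ?_
    rw [ENNReal.mul_rpow_of_nonneg _ _ hs.le]
    gcongr
    calc (2 : ℝ≥0∞) ^ s ≤ 2 ^ (1 : ℝ) := ENNReal.rpow_le_rpow_of_exponent_le (by norm_num) hs1
      _ = 2 := ENNReal.rpow_one _
  calc ∑ a : Fin 3, g s (Q (i, a)).1 = 3 * g s (m i) := by
        simp [hQ]
    _ ≤ 3 * (2 * ENNReal.ofReal (e i) ^ s) := by gcongr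
    _ = 6 * ENNReal.ofReal (e i) ^ s := by
        rw [← mul_assoc]
        norm_num

end Vale.Agent.P028.H79
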