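import Vale.Agent.P028.H79.Full

/-!
# The mass transference principle on the line: every dyadic interval is full (helper79)
-/

set_option linter.all false

namespace Vale.Agent.P028.H79

open MeasureTheory Set Filter Topology
open scoped ENNReal

variable {s : ℝ} {U : Set ℝ} {j n : ℕ} {k : ℤ} {x : ℝ}

theorem Dy_mem_nhds (hx : x ∉ range (fun p : ℕ × ℤ => (p.2 : ℝ) / 2 ^ p.1)) (m : ℕ) :
    Dy m ⌊(2 : ℝ) ^ m * x⌋ ∈ 𝓝 x := by
  have h := mem_Dy.1 (mem_Dy_floor m x)
  rw [Dy_eq]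
  refine Ico_mem_nhds (lt_of_le_of_ne h.1 ?_) h.2
  intro he
  exact hx ⟨(m, ⌊(2 : ℝ) ^ m * x⌋), he⟩

/-- **Differentiation step.** -/
theorem Mi_full (hs : 0 < s) (hs1 : s < 1)
    (hU : ∀ᵐ x : ℝ, ∀ δ : ℝ, 0 < δ → ∃ c r : ℝ, 0 < r ∧ r ^ s < δ ∧ |x - c| < r ^ s ∧
      Metric.ball c r ⊆ U)
    (n : ℕ) (k : ℤ) : Mi s U n k = g s n := by
  classical
  set f : ℝ → ℝ≥0∞ := (Dy n k).indicator (HH s U n) with hf
  have hfm : Measurable f := (measurable_HH n).indicator (measurableSet_Dy n k)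
  set ν : Measure ℝ := volume.withDensity f with hν
  have hfin : IsFiniteMeasure ν := by
    refine ⟨?_⟩
    rw [hν, withDensity_apply _ MeasurableSet.univ, Measure.restrict_univ, hf,
      lintegral_indicator (measurableSet_Dy n k)]
    exact ((int_HH hs n k).trans (Mi_le n k)).trans_lt (g_ne_top s n hs.le).lt_top
  have h1 := Besicovitch.ae_tendsto_rnDeriv ν (volume : Measure ℝ)
  have h2 : ν.rnDeriv volume =ᵐ[volume] f := Measure.rnDeriv_withDensity volume hfm
  have h3 : ∀ᵐ x : ℝ, x ∉ range (fun p : ℕ × ℤ => (p.2 : ℝ) / 2 ^ p.1) :=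
    (countable_range _).ae_notMem volume
  have key : ∀ᵐ x : ℝ, x ∈ Dy n k → HH s U n x ≠ 0 := by
    filter_upwards [h1, h2, h3, hU] with x hx1 hx2 hx3 hx4 hxk h0
    have hfx : f x = 0 := by rw [hf, indicator_of_mem hxk, h0]
    rw [hx2, hfx] at hx1
    have h6 : ∀ᶠ R in 𝓝[>] (0 : ℝ), ν (Metric.closedBall x R) / volume (Metric.closedBall x R)
        < 1 / 6 := hx1 (Iio_mem_nhds (by norm_num))
    obtain ⟨ρ, hρ, h7⟩ := mem_nhdsGT_iff_exists_Ioo_subset.1 h6
    rw [mem_Ioi] at hρ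
    suffices h8 : ∃ R, 0 < R ∧ R < ρ ∧ ENNReal.ofReal (R / 3) ≤ ν (Metric.closedBall x R) by
      obtain ⟨R, hR0, hR1, hR2⟩ := h8
      have h9 := h7 ⟨hR0, hR1⟩
      rw [mem_setOf_eq, Real.volume_closedBall] at h9
      have hpos : ENNReal.ofReal (2 * R) ≠ 0 := (ENNReal.ofReal_pos.2 (by positivity)).ne'
      rw [ENNReal.div_lt_iff (Or.inl hpos) (Or.inl ENNReal.ofReal_ne_top)] at h9
      have h10 : (1 / 6 : ℝ≥0∞) * ENNReal.ofReal (2 * R) = ENNReal.ofReal (R / 3) := by
        have : (1 / 6 : ℝ≥0∞) = ENNReal.ofReal (1 / 6) := by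
          rw [ENNReal.ofReal_div_of_pos (by norm_num)]
          norm_num
        rw [this, ← ENNReal.ofReal_mul (by norm_num)]
        congr 1
        ring
      rw [h10] at h9
      exact absurd hR2 (not_le.2 h9)
    obtain ⟨m0, hm0, hLm⟩ := exists_L_lt (half_pos hρ) n
    obtain ⟨δ, hδ, hball⟩ := Metric.mem_nhds_iff.1 (Dy_mem_nhds hx3 m0)
    obtain ⟨c, r, hr, hrs, hxc, hcr⟩ := hx4 (min (δ / 2) (min (ρ / 4) 1)) (by positivity)
    obtain ⟨hrs1, hrs2, hrs3⟩ : r ^ s < δ / 2 ∧ r ^ s < ρ / 4 ∧ r ^ s < 1 :=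
      ⟨hrs.trans_le (min_le_left _ _),
        hrs.trans_le ((min_le_right _ _).trans (min_le_left _ _)),
        hrs.trans_le ((min_le_right _ _).trans (min_le_right _ _))⟩
    have hrspos : 0 < r ^ s := Real.rpow_pos_of_pos hr s
    have hr1 : r < 1 := by
      by_contra hge
      exact absurd (Real.one_le_rpow (not_lt.1 hge) hs.le) (not_le.2 hrs3)
    have hrr : r ≤ r ^ s := by
      calc r = r ^ (1 : ℝ) := (Real.rpow_one r).symm
        _ ≤ r ^ s := Real.rpow_le_rpow_of_exponent_ge hr hr1.le hs1.le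
    have hin : ∀ y ∈ Metric.ball c r, |y - x| < 2 * r ^ s := by
      intro y hy
      rw [Metric.mem_ball, Real.dist_eq] at hy
      calc |y - x| = |(y - c) - (x - c)| := by ring_nf
        _ ≤ |y - c| + |x - c| := abs_sub _ _
        _ < 2 * r ^ s := by linarith
    have hinδ : ∀ y ∈ Metric.ball c r, ⌊(2 : ℝ) ^ m0 * y⌋ = ⌊(2 : ℝ) ^ m0 * x⌋ := by
      intro y hy
      refine mem_Dy' (hball ?_)
      rw [Metric.mem_ball, Real.dist_eq]
      linarith [hin y hy]
    have hnf := not_fu_of_HH h0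
    have hk : ∀ y ∈ Metric.ball c r, y ∈ Dy n k := by
      intro y hy
      have e1 : ⌊(2 : ℝ) ^ n * y⌋ = ⌊(2 : ℝ) ^ n * x⌋ :=
        floor_eq_of (m0 - n) n (by rw [Nat.add_sub_cancel' hm0]; exact hinδ y hy)
      exact e1.trans (mem_Dy' hxk)
    have hfirst : ∀ y ∈ Metric.ball c r, ∃ d, m0 < n + d ∧
        Fu s U (n + d) ⌊(2 : ℝ) ^ (n + d) * y⌋ ∧
        ∀ i < d, ¬ Fu s U (n + i) ⌊(2 : ℝ) ^ (n + i) * y⌋ := by
      intro y hy
      obtain ⟨d0, hd0⟩ := Dc_sub_ball hy n
      have hex : ∃ d, Fu s U (n + d) ⌊(2 : ℝ) ^ (n + d) * y⌋ :=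
        ⟨d0, Mi_of_sub (hd0.trans hcr)⟩
      refine ⟨Nat.find hex, ?_, Nat.find_spec hex, fun i hi => Nat.find_min hex hi⟩
      by_contra hle
      rw [not_lt] at hle
      have hsp := Nat.find_spec hex
      have e1 : ⌊(2 : ℝ) ^ (n + Nat.find hex) * y⌋ = ⌊(2 : ℝ) ^ (n + Nat.find hex) * x⌋ :=
        floor_eq_of (m0 - (n + Nat.find hex)) _
          (by rw [Nat.add_sub_cancel' hle]; exact hinδ y hy)
      rw [e1] at hsp
      exact hnf _ hsp
    have hlow : ∀ (y : ℝ) (d : ℕ), y ∈ Dy n k → Fu s U (n + d) ⌊(2 : ℝ) ^ (n + d) * y⌋ →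
        (∀ i < d, ¬ Fu s U (n + i) ⌊(2 : ℝ) ^ (n + i) * y⌋) →
        ENNReal.ofReal (L (n + d) ^ (s - 1)) ≤ f y := by
      intro y d hy hfu hmin
      rw [hf, indicator_of_mem hy, ← H_first d n hfu hmin]
      exact le_iSup (fun j => H s U j n y) d
    by_cases hc : ∃ y ∈ Metric.ball c r, ∃ d, m0 < n + d ∧
        Fu s U (n + d) ⌊(2 : ℝ) ^ (n + d) * y⌋ ∧
        (∀ i < d, ¬ Fu s U (n + i) ⌊(2 : ℝ) ^ (n + i) * y⌋) ∧ r ≤ L (n + d)
    · obtain ⟨y, hy, d, hm, hfu, hmin, hrL⟩ := hc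
      have hLle : L (n + d) < ρ / 2 := (L_anti hm.le).trans_lt hLm
      have hLpos := L_pos (n + d)
      have hL1 := L_le_one (n + d)
      refine ⟨2 * r ^ s + L (n + d), by positivity, by linarith, ?_⟩
      have hsub : Dy (n + d) ⌊(2 : ℝ) ^ (n + d) * y⌋ ⊆
          Metric.closedBall x (2 * r ^ s + L (n + d)) := by
        intro z hz
        rw [Metric.mem_closedBall, Real.dist_eq]
        have h11 := abs_sub_of_mem_Dc (Dy_subset_Dc _ _ hz)
          (Dy_subset_Dc _ _ (mem_Dy_floor (n + d) y))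
        have h12 := hin y hy
        calc |z - x| = |(z - y) + (y - x)| := by ring_nf
          _ ≤ |z - y| + |y - x| := abs_add_le _ _
          _ ≤ _ := by linarith
      have hge : ∀ z ∈ Dy (n + d) ⌊(2 : ℝ) ^ (n + d) * y⌋,
          ENNReal.ofReal (L (n + d) ^ (s - 1)) ≤ f z := by
        intro z hz
        have hz' := mem_Dy' hz
        have e1 : ∀ i ≤ d, ⌊(2 : ℝ) ^ (n + i) * z⌋ = ⌊(2 : ℝ) ^ (n + i) * y⌋ := by
          intro i hi
          refine floor_eq_of (d - i) (n + i) ?_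
          rw [show n + i + (d - i) = n + d by omega]
          exact hz'
        refine hlow z d ?_ ?_ ?_
        · exact (e1 0 (Nat.zero_le _)).trans (mem_Dy' (hk y hy))
        · rw [e1 d le_rfl]; exact hfu
        · intro i hi
          rw [e1 i hi.le]
          exact hmin i hi
      calc ENNReal.ofReal ((2 * r ^ s + L (n + d)) / 3) ≤ g s (n + d) := by
            rw [g_eq]
            refine ENNReal.ofReal_le_ofReal ?_
            have h13 : r ^ s ≤ L (n + d) ^ s := Real.rpow_le_rpow hr.le hrL hs.le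
            have h14 : L (n + d) ≤ L (n + d) ^ s := by
              calc L (n + d) = L (n + d) ^ (1 : ℝ) := (Real.rpow_one _).symm
                _ ≤ L (n + d) ^ s := Real.rpow_le_rpow_of_exponent_ge hLpos hL1 hs1.le
            linarith
        _ = ∫⁻ z in Dy (n + d) ⌊(2 : ℝ) ^ (n + d) * y⌋, ENNReal.ofReal (L (n + d) ^ (s - 1)) := by
            rw [setLIntegral_const, volume_Dy, pow_mul_self hs]
        _ ≤ ∫⁻ z in Dy (n + d) ⌊(2 : ℝ) ^ (n + d) * y⌋, f z :=
            setLIntegral_mono hfm hge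
        _ = ν (Dy (n + d) ⌊(2 : ℝ) ^ (n + d) * y⌋) := by
            rw [hν, withDensity_apply _ (measurableSet_Dy _ _)]
        _ ≤ _ := measure_mono hsub
    · push Not at hc
      refine ⟨2 * r ^ s, by positivity, by linarith, ?_⟩
      have hsub : Metric.ball c r ⊆ Metric.closedBall x (2 * r ^ s) := by
        intro z hz
        rw [Metric.mem_closedBall, Real.dist_eq]
        exact (hin z hz).le
      have hge : ∀ z ∈ Metric.ball c r, ENNReal.ofReal (r ^ (s - 1)) ≤ f z := by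
        intro z hz
        obtain ⟨d, hd1, hd2, hd3⟩ := hfirst z hz
        have hlt := hc z hz d hd1 hd2 hd3
        refine le_trans (ENNReal.ofReal_le_ofReal ?_) (hlow z d (hk z hz) hd2 hd3)
        exact Real.rpow_le_rpow_of_nonpos (L_pos _) hlt.le (by linarith)
      calc ENNReal.ofReal (2 * r ^ s / 3) ≤ ENNReal.ofReal (2 * r ^ s) :=
            ENNReal.ofReal_le_ofReal (by linarith)
        _ = ENNReal.ofReal (r ^ (s - 1)) * ENNReal.ofReal (2 * r) := by
            rw [← ENNReal.ofReal_mul (Real.rpow_nonneg hr.le _)]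
            congr 1
            have : r ^ s = r ^ (s - 1) * r := by
              nth_rewrite 3 [← Real.rpow_one r]
              rw [← Real.rpow_add hr]
              congr 1
              ring
            rw [this]
            ring
        _ = ∫⁻ z in Metric.ball c r, ENNReal.ofReal (r ^ (s - 1)) := by
            rw [setLIntegral_const, Real.volume_ball]
        _ ≤ ∫⁻ z in Metric.ball c r, f z := setLIntegral_mono hfm hge
        _ = ν (Metric.ball c r) := by
            rw [hν, withDensity_apply _ measurableSet_ball]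
        _ ≤ _ := measure_mono hsub
  have h5 : volume (Dy n k ∩ {x | HH s U n x ≠ 0}) = volume (Dy n k) := by
    refine le_antisymm (measure_mono inter_subset_left) ?_
    refine measure_mono_ae ?_
    filter_upwards [key] with x hx hxk
    exact ⟨hxk, hx hxk⟩
  refine le_antisymm (Mi_le n k) ?_
  calc g s n = (volume (Dy n k)) ^ s := by rw [volume_Dy]; rfl
    _ = (volume (Dy n k ∩ {x | HH s U n x ≠ 0})) ^ s := by rw [h5]
    _ ≤ _ := vol_HH hs hs1.le n k

end Vale.Agent.P028.H79
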