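import Vale.Agent.P028.H79.Cantor
import Vale.Agent.P028.H79.Diff

/-!
# The mass transference principle on the line: Hausdorff content of limsup sets (helper79)
-/

set_option linter.all false

namespace Vale.Agent.P028.H79

open MeasureTheory Set Filter Topology
open scoped ENNReal NNReal

variable {s : ℝ} {A B : Set ℝ} {j n : ℕ} {k : ℤ} {x : ℝ}

/-- a set of small diameter is in an interval of almost the same size -/
theorem fatten (hs : 0 < s) (hs1 : s ≤ 1) {t : Set ℝ} (ht : Metric.ediam t ≤ 1 / 4)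
    {ε : ℝ≥0∞} (hε : 0 < ε) : ∃ z e : ℝ, (0 < e ∧ e ≤ 1) ∧ t ⊆ Ioo (z - e) (z + e) ∧
      ENNReal.ofReal e ^ s ≤ (⨆ _ : t.Nonempty, Metric.ediam t ^ s) + ε := by
  obtain ⟨δ, hδ0, hδ1, hδ2⟩ : ∃ δ : ℝ, 0 < δ ∧ δ ≤ 1 / 2 ∧ ENNReal.ofReal δ ^ s ≤ ε := by
    have h1 : Tendsto (fun δ : ℝ => ENNReal.ofReal δ ^ s) (𝓝[>] 0) (𝓝 (ENNReal.ofReal 0 ^ s)) :=
      (((ENNReal.continuous_rpow_const (y := s)).comp ENNReal.continuous_ofReal).tendsto 0).mono_left
        nhdsWithin_le_nhds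
    rw [ENNReal.ofReal_zero, ENNReal.zero_rpow_of_pos hs] at h1
    have h2 := (h1.eventually (gt_mem_nhds hε)).and
      ((Ioc_mem_nhdsGT (show (0 : ℝ) < 1 / 2 by norm_num)))
    obtain ⟨δ, h3, h4⟩ := (h1.eventually (gt_mem_nhds hε) |>.and
      (Filter.eventually_of_mem (Ioc_mem_nhdsGT (show (0 : ℝ) < 1 / 2 by norm_num))
        (fun x hx => hx))).exists
    exact ⟨δ, h4.1, h4.2, h3.le⟩
  rcases t.eq_empty_or_nonempty with rfl | ⟨z, hz⟩
  · refine ⟨0, δ, ⟨hδ0, by linarith⟩, empty_subset _, ?_⟩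
    exact hδ2.trans le_add_self
  · have hfin : Metric.ediam t ≠ ∞ := ne_top_of_le_ne_top (by norm_num) ht
    have hd : Metric.diam t ≤ 1 / 4 := by
      unfold Metric.diam
      have := ENNReal.toReal_mono (by norm_num) ht
      simpa using this
    have hd0 : 0 ≤ Metric.diam t := Metric.diam_nonneg
    have hb : Bornology.IsBounded t := Metric.isBounded_iff_ediam_ne_top.2 hfin
    refine ⟨z, Metric.diam t + δ, ⟨by linarith, by linarith⟩, ?_, ?_⟩
    · intro y hy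
      have h1 := Metric.dist_le_diam_of_mem hb hy hz
      rw [Real.dist_eq, abs_le] at h1
      constructor <;> linarith [h1.1, h1.2]
    · rw [ENNReal.ofReal_add hd0 hδ0.le]
      refine (ENNReal.rpow_add_le_add_rpow _ _ hs.le hs1).trans (add_le_add ?_ hδ2)
      rw [iSup_pos ⟨z, hz⟩]
      unfold Metric.diam
      rw [ENNReal.ofReal_toReal hfin]

/-- **Content of the limsup set in a dyadic interval.** -/
theorem content (hs : 0 < s) (hs1 : s ≤ 1) {U : ℕ → Set ℝ}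
    (hU : ∀ i n k, Mi s (U i) n k = g s n) (n0 : ℕ) (k0 : ℤ) :
    g s n0 ≤ 12 * Measure.hausdorffMeasure s ((⋂ i, U i) ∩ Dc n0 k0) := by
  set m0 : ℝ≥0∞ := g s n0 / 2 with hm0
  have hm0lt : m0 < g s n0 := ENNReal.half_lt_self (g_pos s n0).ne' (g_ne_top s n0 hs.le)
  -- the sequence of compact sets
  let St : Type := {p : Set ℝ × ℕ // IsCompact p.1 ∧ m0 < MM s p.1 p.2 n0 k0}
  have hstep : ∀ (i : ℕ) (p : St), ∃ q : St, q.1.1 ⊆ p.1.1 ∩ U i := by
    rintro i ⟨⟨F, j⟩, hF, hj⟩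
    obtain ⟨F', j', h1, h2, h3⟩ := step hF (hU i) hj
    exact ⟨⟨(F', j'), h1, h3⟩, h2⟩
  choose nx hnx using hstep
  let p0 : St := ⟨(Dc n0 k0, 0), isCompact_Dc _ _, by
    rw [MM_of_sub Subset.rfl]
    exact hm0lt⟩
  let P : ℕ → St := fun i => Nat.rec p0 (fun i p => nx i p) i
  have hP0 : (P 0).1.1 = Dc n0 k0 := rfl
  have hPs : ∀ i, (P (i + 1)).1.1 ⊆ (P i).1.1 ∩ U i := fun i => hnx i (P i)
  have hanti : Antitone fun i => (P i).1.1 :=
    antitone_nat_of_succ_le fun i => (hPs i).trans inter_subset_left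
  set K : Set ℝ := ⋂ i, (P i).1.1 with hK
  have hKsub : K ⊆ (⋂ i, U i) ∩ Dc n0 k0 := by
    intro y hy
    rw [hK, mem_iInter] at hy
    refine ⟨mem_iInter.2 fun i => ((hPs i) (hy (i + 1))).2, ?_⟩
    rw [← hP0]
    exact hy 0
  have main : m0 ≤ 6 * Measure.hausdorffMeasure s K := by
    rw [Measure.hausdorffMeasure_apply]
    have h4 : (0 : ℝ≥0∞) < 1 / 4 := by norm_num
    refine le_trans ?_ (mul_le_mul_right (le_iSup₂_of_le (1 / 4) h4 le_rfl) 6)
    rw [ENNReal.mul_iInf_of_ne (by norm_num) (by norm_num)]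
    refine le_iInf fun t => ?_
    rw [ENNReal.mul_iInf_of_ne (by norm_num) (by norm_num)]
    refine le_iInf fun hcov => ?_
    rw [ENNReal.mul_iInf_of_ne (by norm_num) (by norm_num)]
    refine le_iInf fun hdiam => ?_
    refine ENNReal.le_of_forall_pos_le_add fun ε hε _ => ?_
    obtain ⟨ε', hε'0, hε'⟩ := ENNReal.exists_pos_sum_of_countable'
      (ι := ℕ) (ε := (ε : ℝ≥0∞) / 6) (by
        rw [ne_eq, ENNReal.div_eq_zero_iff]
        push Not
        exact ⟨by exact_mod_cast hε.ne', by norm_num⟩)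
    have hfat : ∀ i, ∃ z e : ℝ, (0 < e ∧ e ≤ 1) ∧ t i ⊆ Ioo (z - e) (z + e) ∧
      ENNReal.ofReal e ^ s ≤ (⨆ _ : (t i).Nonempty, Metric.ediam (t i) ^ s) + ε' i := fun i =>
      fatten hs hs1 (hdiam i) (hε'0 i)
    choose z e he hte hee using hfat
    have hKc : K ⊆ ⋃ i, Ioo (z i - e i) (z i + e i) :=
      hcov.trans (iUnion_mono fun i => hte i)
    have hopen : IsOpen (⋃ i, Ioo (z i - e i) (z i + e i)) := isOpen_iUnion fun i => isOpen_Ioo
    obtain ⟨N, hN⟩ := exists_subset_nhds_of_isCompact (V := fun i => (P i).1.1)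
      (fun a b => ⟨max a b, hanti (le_max_left a b), hanti (le_max_right a b)⟩)
      (fun i => (P i).2.1) (U := ⋃ i, Ioo (z i - e i) (z i + e i))
      (fun y hy => hopen.mem_nhds (hKc hy))
    obtain ⟨T, hT⟩ := (P N).2.1.elim_finite_subcover (fun i => Ioo (z i - e i) (z i + e i))
      (fun i => isOpen_Ioo) hN
    calc m0 ≤ MM s (P N).1.1 (P N).1.2 n0 k0 := (P N).2.2.le
      _ ≤ 6 * ∑ i ∈ T, ENNReal.ofReal (e i) ^ s := cover_lower hs hs1 T z e he hT
      _ ≤ 6 * ∑' i, ((⨆ _ : (t i).Nonempty, Metric.ediam (t i) ^ s) + ε' i) := by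
          gcongr
          exact (Finset.sum_le_sum fun i _ => hee i).trans (ENNReal.sum_le_tsum T)
      _ = 6 * (∑' i, ⨆ _ : (t i).Nonempty, Metric.ediam (t i) ^ s) + 6 * ∑' i, ε' i := by
          rw [ENNReal.tsum_add, mul_add]
      _ ≤ 6 * (∑' i, ⨆ _ : (t i).Nonempty, Metric.ediam (t i) ^ s) + ε := by
          refine add_le_add le_rfl ?_
          calc 6 * ∑' i, ε' i ≤ 6 * ((ε : ℝ≥0∞) / 6) := by gcongr
            _ = ε := ENNReal.mul_div_cancel (by norm_num) (by norm_num)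
  calc g s n0 = 2 * m0 := by
        rw [hm0, ENNReal.mul_div_cancel (by norm_num) (by norm_num)]
    _ ≤ 2 * (6 * Measure.hausdorffMeasure s K) := by gcongr
    _ = 12 * Measure.hausdorffMeasure s K := by
        rw [← mul_assoc]
        norm_num
    _ ≤ _ := by gcongr

end Vale.Agent.P028.H79
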