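import Vale.Agent.P028.H79.Tree

/-!
# The mass transference principle on the line: the differentiation step (helper79)

If almost every point is, at arbitrarily small scales, in the ball of radius `r ^ s` of the centre
of a ball of radius `r` contained in `U`, then every dyadic interval is full: `Mi s U n k = g s n`.
-/

set_option linter.all false

namespace Vale.Agent.P028.H79

open MeasureTheory Set Filter Topology
open scoped ENNReal

variable {s : ℝ} {U : Set ℝ} {j n : ℕ} {k : ℤ} {x : ℝ}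

/-- full intervals -/
def Fu (s : ℝ) (U : Set ℝ) (n : ℕ) (k : ℤ) : Prop := Mi s U n k = g s n

open Classical in
/-- density of the maximal full intervals, up to depth `j` -/
noncomputable def H (s : ℝ) (U : Set ℝ) : ℕ → ℕ → ℝ → ℝ≥0∞
  | 0, n, x => if Fu s U n ⌊(2 : ℝ) ^ n * x⌋ then ENNReal.ofReal (L n ^ (s - 1)) else 0
  | j + 1, n, x => if Fu s U n ⌊(2 : ℝ) ^ n * x⌋ then ENNReal.ofReal (L n ^ (s - 1))
      else H s U j (n + 1) x

theorem H_of_fu (j : ℕ) (h : Fu s U n ⌊(2 : ℝ) ^ n * x⌋) :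
    H s U j n x = ENNReal.ofReal (L n ^ (s - 1)) := by
  cases j <;> simp only [H, if_pos h]

theorem H_zero_not (h : ¬ Fu s U n ⌊(2 : ℝ) ^ n * x⌋) : H s U 0 n x = 0 := by
  simp only [H, if_neg h]

theorem H_succ_not (h : ¬ Fu s U n ⌊(2 : ℝ) ^ n * x⌋) : H s U (j + 1) n x = H s U j (n + 1) x := by
  simp only [H, if_neg h]

theorem measurableSet_fu (n : ℕ) : MeasurableSet {x : ℝ | Fu s U n ⌊(2 : ℝ) ^ n * x⌋} := by
  have h : Measurable fun x : ℝ => ⌊(2 : ℝ) ^ n * x⌋ :=
    Int.measurable_floor.comp (measurable_const.mul measurable_id)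
  exact h (MeasurableSet.of_discrete (s := {k : ℤ | Fu s U n k}))

theorem measurable_H (j : ℕ) : ∀ n, Measurable (H s U j n) := by
  classical
  induction j with
  | zero =>
    intro n
    have : H s U 0 n = fun x => if Fu s U n ⌊(2 : ℝ) ^ n * x⌋ then
        ENNReal.ofReal (L n ^ (s - 1)) else 0 := by
      funext x
      simp only [H]
    rw [this]
    exact Measurable.ite (measurableSet_fu n) measurable_const measurable_const
  | succ j ih =>
    intro n
    have : H s U (j + 1) n = fun x => if Fu s U n ⌊(2 : ℝ) ^ n * x⌋ then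
        ENNReal.ofReal (L n ^ (s - 1)) else H s U j (n + 1) x := by
      funext x
      simp only [H]
    rw [this]
    exact Measurable.ite (measurableSet_fu n) measurable_const (ih (n + 1))

theorem H_mono (j : ℕ) : ∀ (n : ℕ) (x : ℝ), H s U j n x ≤ H s U (j + 1) n x := by
  induction j with
  | zero =>
    intro n x
    by_cases h : Fu s U n ⌊(2 : ℝ) ^ n * x⌋
    · rw [H_of_fu _ h, H_of_fu _ h]
    · rw [H_zero_not h]
      exact bot_le
  | succ j ih =>
    intro n x
    by_cases h : Fu s U n ⌊(2 : ℝ) ^ n * x⌋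
    · rw [H_of_fu _ h, H_of_fu _ h]
    · rw [H_succ_not h, H_succ_not h]
      exact ih _ _

theorem H_monotone (n : ℕ) : Monotone fun j => H s U j n :=
  monotone_nat_of_le_succ fun j x => H_mono j n x

theorem Mi_not_full (h : ¬ Fu s U n k) :
    Mi s U n k = Mi s U (n + 1) (2 * k) + Mi s U (n + 1) (2 * k + 1) := by
  have h1 : ¬ Dc n k ⊆ U := fun hh => h (Mi_of_sub hh)
  have h2 := Mi_of_not (s := s) h1
  rcases min_choice (g s n) (Mi s U (n + 1) (2 * k) + Mi s U (n + 1) (2 * k + 1)) with h3 | h3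
  · exact absurd (h2.trans h3) h
  · exact h2.trans h3

theorem mem_Dy' (h : x ∈ Dy n k) : ⌊(2 : ℝ) ^ n * x⌋ = k := h

theorem Dy_split_disj (n : ℕ) (k : ℤ) : Disjoint (Dy (n + 1) (2 * k)) (Dy (n + 1) (2 * k + 1)) :=
  Dy_disjoint _ (by omega)

theorem pow_mul_self (hs : 0 < s) (n : ℕ) :
    ENNReal.ofReal (L n ^ (s - 1)) * ENNReal.ofReal (L n) = g s n := by
  rw [g_eq, ← ENNReal.ofReal_mul (Real.rpow_nonneg (L_pos n).le _)]
  congr 1
  nth_rewrite 2 [← Real.rpow_one (L n)]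
  rw [← Real.rpow_add (L_pos n)]
  congr 1
  ring

theorem int_H (hs : 0 < s) (j : ℕ) : ∀ (n : ℕ) (k : ℤ),
    ∫⁻ x in Dy n k, H s U j n x ≤ Mi s U n k := by
  have hf : ∀ (j n : ℕ) (k : ℤ), Fu s U n k → ∫⁻ x in Dy n k, H s U j n x ≤ Mi s U n k := by
    intro j n k h
    rw [setLIntegral_congr_fun (g := fun _ => ENNReal.ofReal (L n ^ (s - 1)))
      (measurableSet_Dy n k) (fun x hx => H_of_fu j (by rw [mem_Dy' hx]; exact h)),
      setLIntegral_const, volume_Dy, pow_mul_self hs]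
    exact h.symm.le
  induction j with
  | zero =>
    intro n k
    by_cases h : Fu s U n k
    · exact hf 0 n k h
    · rw [setLIntegral_congr_fun (g := fun _ => 0)
        (measurableSet_Dy n k) (fun x hx => H_zero_not (by rw [mem_Dy' hx]; exact h)),
        setLIntegral_const, zero_mul]
      exact bot_le
  | succ j ih =>
    intro n k
    by_cases h : Fu s U n k
    · exact hf (j + 1) n k h
    · rw [setLIntegral_congr_fun (g := fun x => H s U j (n + 1) x)
        (measurableSet_Dy n k) (fun x hx => H_succ_not (by rw [mem_Dy' hx]; exact h)),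
        Dy_split, lintegral_union (measurableSet_Dy _ _) (Dy_split_disj n k), Mi_not_full h]
      exact add_le_add (ih _ _) (ih _ _)

theorem vol_H (hs : 0 < s) (hs1 : s ≤ 1) (j : ℕ) : ∀ (n : ℕ) (k : ℤ),
    (volume (Dy n k ∩ {x | H s U j n x ≠ 0})) ^ s ≤ Mi s U n k := by
  have hf : ∀ (j n : ℕ) (k : ℤ), Fu s U n k →
      (volume (Dy n k ∩ {x | H s U j n x ≠ 0})) ^ s ≤ Mi s U n k := by
    intro j n k h
    rw [show Mi s U n k = g s n from h]
    unfold g
    refine ENNReal.rpow_le_rpow ?_ hs.le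
    rw [← volume_Dy n k]
    exact measure_mono inter_subset_left
  induction j with
  | zero =>
    intro n k
    by_cases h : Fu s U n k
    · exact hf 0 n k h
    · have : Dy n k ∩ {x | H s U 0 n x ≠ 0} = ∅ := by
        ext x
        simp only [mem_inter_iff, mem_setOf_eq, mem_empty_iff_false, iff_false, not_and, not_not]
        exact fun hx => H_zero_not (by rw [mem_Dy' hx]; exact h)
      rw [this, measure_empty, ENNReal.zero_rpow_of_pos hs]
      exact bot_le
  | succ j ih =>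
    intro n k
    by_cases h : Fu s U n k
    · exact hf (j + 1) n k h
    · have : Dy n k ∩ {x | H s U (j + 1) n x ≠ 0} =
          (Dy (n + 1) (2 * k) ∩ {x | H s U j (n + 1) x ≠ 0}) ∪
          (Dy (n + 1) (2 * k + 1) ∩ {x | H s U j (n + 1) x ≠ 0}) := by
        rw [← union_inter_distrib_right, ← Dy_split]
        ext x
        simp only [mem_inter_iff, mem_setOf_eq, and_congr_right_iff]
        intro hx
        rw [H_succ_not (by rw [mem_Dy' hx]; exact h)]
      rw [this, Mi_not_full h]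
      calc (volume ((Dy (n + 1) (2 * k) ∩ {x | H s U j (n + 1) x ≠ 0}) ∪
            (Dy (n + 1) (2 * k + 1) ∩ {x | H s U j (n + 1) x ≠ 0}))) ^ s
          ≤ (volume (Dy (n + 1) (2 * k) ∩ {x | H s U j (n + 1) x ≠ 0}) +
            volume (Dy (n + 1) (2 * k + 1) ∩ {x | H s U j (n + 1) x ≠ 0})) ^ s :=
            ENNReal.rpow_le_rpow (measure_union_le _ _) hs.le
        _ ≤ (volume (Dy (n + 1) (2 * k) ∩ {x | H s U j (n + 1) x ≠ 0})) ^ s +
            (volume (Dy (n + 1) (2 * k + 1) ∩ {x | H s U j (n + 1) x ≠ 0})) ^ s :=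
            ENNReal.rpow_add_le_add_rpow _ _ hs.le hs1
        _ ≤ _ := add_le_add (ih _ _) (ih _ _)

/-- the density of the maximal full intervals -/
noncomputable def HH (s : ℝ) (U : Set ℝ) (n : ℕ) (x : ℝ) : ℝ≥0∞ := ⨆ j, H s U j n x

theorem measurable_HH (n : ℕ) : Measurable (HH s U n) :=
  Measurable.iSup fun j => measurable_H j n

theorem int_HH (hs : 0 < s) (n : ℕ) (k : ℤ) : ∫⁻ x in Dy n k, HH s U n x ≤ Mi s U n k := by
  unfold HH
  rw [lintegral_iSup (fun j => measurable_H j n) (H_monotone n)]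
  exact iSup_le fun j => int_H hs j n k

theorem vol_HH (hs : 0 < s) (hs1 : s ≤ 1) (n : ℕ) (k : ℤ) :
    (volume (Dy n k ∩ {x | HH s U n x ≠ 0})) ^ s ≤ Mi s U n k := by
  have h0 : Dy n k ∩ {x | HH s U n x ≠ 0} = ⋃ j, (Dy n k ∩ {x | H s U j n x ≠ 0}) := by
    ext x
    simp only [HH, mem_inter_iff, mem_setOf_eq, mem_iUnion, ne_eq, ENNReal.iSup_eq_zero, not_forall,
      exists_and_left]
  have hmono : Monotone fun j => Dy n k ∩ {x | H s U j n x ≠ 0} := by
    intro i j hij x hx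
    refine ⟨hx.1, fun h0 => hx.2 ?_⟩
    exact le_antisymm ((H_monotone n hij x).trans h0.le) bot_le
  have h1 : Tendsto (fun j => volume (Dy n k ∩ {x | H s U j n x ≠ 0})) atTop
      (𝓝 (volume (Dy n k ∩ {x | HH s U n x ≠ 0}))) := by
    rw [h0]
    exact tendsto_measure_iUnion_atTop hmono
  have h2 := (ENNReal.continuous_rpow_const (y := s)).tendsto
    (volume (Dy n k ∩ {x | HH s U n x ≠ 0}))
  exact le_of_tendsto' (h2.comp h1) fun j => vol_H hs hs1 j n k

theorem H_first (d : ℕ) : ∀ (n : ℕ), Fu s U (n + d) ⌊(2 : ℝ) ^ (n + d) * x⌋ →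
    (∀ i < d, ¬ Fu s U (n + i) ⌊(2 : ℝ) ^ (n + i) * x⌋) →
    H s U d n x = ENNReal.ofReal (L (n + d) ^ (s - 1)) := by
  induction d with
  | zero =>
    intro n h _
    exact H_of_fu 0 h
  | succ d ih =>
    intro n h hn
    rw [H_succ_not (by simpa using hn 0 (Nat.succ_pos d)), ih (n + 1)]
    · rw [show n + 1 + d = n + (d + 1) by ring]
    · rw [show n + 1 + d = n + (d + 1) by ring]
      exact h
    · intro i hi
      rw [show n + 1 + i = n + (i + 1) by ring]
      exact hn (i + 1) (by omega)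

theorem not_fu_of_HH (h : HH s U n x = 0) (i : ℕ) : ¬ Fu s U (n + i) ⌊(2 : ℝ) ^ (n + i) * x⌋ := by
  classical
  intro hi
  have hex : ∃ d, Fu s U (n + d) ⌊(2 : ℝ) ^ (n + d) * x⌋ := ⟨i, hi⟩
  have h1 := H_first (Nat.find hex) n (Nat.find_spec hex) (fun i hi => Nat.find_min hex hi)
  have h2 : H s U (Nat.find hex) n x ≤ HH s U n x := le_iSup (fun j => H s U j n x) _
  rw [h, h1] at h2
  have h3 : 0 < ENNReal.ofReal (L (n + Nat.find hex) ^ (s - 1)) :=
    ENNReal.ofReal_pos.2 (Real.rpow_pos_of_pos (L_pos _) _)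
  exact absurd h2 (not_le.2 h3)

theorem floor_half (n : ℕ) (x : ℝ) : ⌊(2 : ℝ) ^ n * x⌋ = ⌊(2 : ℝ) ^ (n + 1) * x⌋ / 2 := by
  rcases floor_succ n x with h | h <;> omega

theorem floor_eq_of (d : ℕ) (n : ℕ) {x y : ℝ}
    (h : ⌊(2 : ℝ) ^ (n + d) * x⌋ = ⌊(2 : ℝ) ^ (n + d) * y⌋) :
    ⌊(2 : ℝ) ^ n * x⌋ = ⌊(2 : ℝ) ^ n * y⌋ := by
  induction d with
  | zero => exact h
  | succ d ih =>
    apply ih
    rw [floor_half, floor_half (n + d) y]
    exact congrArg (· / 2) h

theorem abs_sub_of_mem_Dc {x y : ℝ} (hx : x ∈ Dc n k) (hy : y ∈ Dc n k) : |x - y| ≤ L n := by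
  unfold Dc at hx hy
  have h : ((k : ℝ) + 1) / 2 ^ n = (k : ℝ) / 2 ^ n + L n := by
    unfold L
    rw [one_div, inv_pow]
    field_simp
  rw [h] at hx hy
  rw [abs_le]
  constructor <;> linarith [hx.1, hx.2, hy.1, hy.2]

theorem tendsto_L : Tendsto L atTop (𝓝 0) :=
  tendsto_pow_atTop_nhds_zero_of_lt_one (by norm_num) (by norm_num)

theorem exists_L_lt {ε : ℝ} (hε : 0 < ε) (n : ℕ) : ∃ m, n ≤ m ∧ L m < ε := by
  have h := (tendsto_L.eventually (gt_mem_nhds hε)).and (eventually_ge_atTop n)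
  obtain ⟨m, h1, h2⟩ := h.exists
  exact ⟨m, h2, h1⟩

theorem Dc_sub_ball {c r x : ℝ} (hx : x ∈ Metric.ball c r) (n : ℕ) :
    ∃ d, Dc (n + d) ⌊(2 : ℝ) ^ (n + d) * x⌋ ⊆ Metric.ball c r := by
  obtain ⟨ε, hε, hb⟩ := Metric.isOpen_iff.1 Metric.isOpen_ball x hx
  obtain ⟨m, hm, hL⟩ := exists_L_lt hε n
  refine ⟨m - n, ?_⟩
  rw [show n + (m - n) = m by omega]
  intro y hy
  apply hb
  rw [Metric.mem_ball, Real.dist_eq]
  exact (abs_sub_of_mem_Dc hy (Dy_subset_Dc _ _ (mem_Dy_floor m x))).trans_lt hL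

end Vale.Agent.P028.H79
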