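import Vale.Agent.P028.H79.Mtp

/-!
# Hausdorff form of the weak inhomogeneous Duffin-Schaeffer theorem (helper79)

From the Lebesgue statement for all `ψ` to the Hausdorff measure statement for all `ψ`, by mass
transference.
-/

set_option linter.all false

namespace Vale.Agent.P028.H79

open MeasureTheory Set Filter Topology
open scoped ENNReal NNReal

variable {s : ℝ}

/-- the inequality for the distance to the nearest integer -/
theorem near_iff {t ε : ℝ} : |t - round t| < ε ↔ ∃ p : ℤ, |t - p| < ε :=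
  ⟨fun h => ⟨round t, h⟩, fun ⟨p, hp⟩ => (round_le t p).trans_lt hp⟩

/-- the limsup set as an intersection of open sets -/
def UU (γ : ℝ) (ψ : ℕ → ℝ) (N : ℕ) : Set ℝ :=
  {x : ℝ | ∃ q : ℕ, N ≤ q ∧ 0 < q ∧ ∃ p : ℤ, |(q * x - γ) - p| < ψ q}

theorem W_eq (γ : ℝ) (ψ : ℕ → ℝ) : {x : ℝ | {q : ℕ | 0 < q ∧
    |(q * x - γ) - round (q * x - γ)| < ψ q}.Infinite} = ⋂ N, UU γ ψ N := by
  ext x
  rw [mem_setOf_eq, mem_iInter, ← Nat.frequently_atTop_iff_infinite, frequently_atTop]
  refine forall_congr' fun N => ?_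
  simp only [UU, mem_setOf_eq, near_iff, ge_iff_le]

theorem isOpen_UU (γ : ℝ) (ψ : ℕ → ℝ) (N : ℕ) : IsOpen (UU γ ψ N) := by
  have : UU γ ψ N = ⋃ q : ℕ, ⋃ _ : N ≤ q ∧ 0 < q, ⋃ p : ℤ, {x : ℝ | |(q * x - γ) - p| < ψ q} := by
    ext x
    simp only [UU, mem_setOf_eq, mem_iUnion, exists_prop, and_assoc]
  rw [this]
  refine isOpen_iUnion fun q => isOpen_iUnion fun _ => isOpen_iUnion fun p => ?_
  exact isOpen_lt (by fun_prop) continuous_const

/-- from the Lebesgue statement for `q (ψ q / q) ^ s` to the hypothesis of `mtp` for `ψ` -/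
theorem ae_UU (γ : ℝ)
    (hQ1 : ∀ ψ' : ℕ → ℝ, (∀ q, 0 ≤ ψ' q) →
      ¬ Summable (fun q : ℕ => ((Nat.totient q : ℝ) / q) * ψ' q) →
      volume {x : ℝ | {q : ℕ | 0 < q ∧
        |(q * x - γ) - round (q * x - γ)| < ψ' q}.Infinite}ᶜ = 0)
    (ψ : ℕ → ℝ) (hψ : ∀ q, 0 ≤ ψ q) (hs : 0 < s)
    (hdiv : ¬ Summable (fun q : ℕ => (Nat.totient q : ℝ) * (ψ q / q) ^ s)) (N : ℕ) :
    ∀ᵐ x : ℝ, ∀ δ : ℝ, 0 < δ → ∃ c r : ℝ, 0 < r ∧ r ^ s < δ ∧ |x - c| < r ^ s ∧
      Metric.ball c r ⊆ UU γ ψ N := by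
  by_cases hbig : {q : ℕ | 1 / 2 < ψ q}.Infinite
  · have h1 : UU γ ψ N = univ := by
      ext x
      simp only [mem_univ, iff_true]
      have h2 : x ∈ ⋂ N, UU γ ψ N := by
        rw [← W_eq]
        refine Infinite.mono ?_ (hbig.diff (finite_singleton 0))
        rintro q ⟨hq, hq0⟩
        exact ⟨Nat.pos_of_ne_zero hq0, (abs_sub_round _).trans_lt hq⟩
      exact mem_iInter.1 h2 N
    refine Eventually.of_forall fun x δ hδ => ?_
    obtain ⟨r, hr0, hr⟩ : ∃ r : ℝ, 0 < r ∧ r ^ s < δ := by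
      have h3 : Tendsto (fun r : ℝ => r ^ s) (𝓝[>] 0) (𝓝 ((0 : ℝ) ^ s)) :=
        ((Real.continuous_rpow_const hs.le).tendsto 0).mono_left nhdsWithin_le_nhds
      rw [Real.zero_rpow hs.ne'] at h3
      obtain ⟨r, h4, h5⟩ := ((h3.eventually (gt_mem_nhds hδ)).and self_mem_nhdsWithin).exists
      exact ⟨r, h5, h4⟩
    refine ⟨x, r, hr0, hr, ?_, by rw [h1]; exact subset_univ _⟩
    rw [sub_self, abs_zero]
    exact Real.rpow_pos_of_pos hr0 s
  · rw [not_infinite] at hbig
    -- the Lebesgue statement for `ψ' q = q (ψ q / q) ^ s`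
    have hae : ∀ᵐ x : ℝ, {q : ℕ | 0 < q ∧
        |(q * x - γ) - round (q * x - γ)| < q * (ψ q / q) ^ s}.Infinite := by
      have h1 := hQ1 (fun q => q * (ψ q / q) ^ s) (fun q => mul_nonneg (Nat.cast_nonneg q)
        (Real.rpow_nonneg (div_nonneg (hψ q) (Nat.cast_nonneg q)) _)) ?_
      · exact h1
      · intro hsum
        apply hdiv
        refine hsum.congr fun q => ?_
        rcases Nat.eq_zero_or_pos q with rfl | hq
        · simp
        · have hq' : (q : ℝ) ≠ 0 := by exact_mod_cast hq.ne'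
          field_simp
    -- `ψ q / q → 0`
    have hlim : Tendsto (fun q : ℕ => (ψ q / q) ^ s) atTop (𝓝 0) := by
      have h1 : Tendsto (fun q : ℕ => ψ q / q) atTop (𝓝 0) := by
        have h2 : Tendsto (fun q : ℕ => (1 / 2 : ℝ) / q) atTop (𝓝 0) :=
          tendsto_const_div_atTop_nhds_zero_nat _
        have hev : ∀ᶠ q : ℕ in atTop, ψ q ≤ 1 / 2 := by
          have := hbig.eventually_cofinite_notMem
          rw [Nat.cofinite_eq_atTop] at this
          filter_upwards [this] with q hq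
          exact not_lt.1 hq
        refine tendsto_of_tendsto_of_tendsto_of_le_of_le' tendsto_const_nhds h2
          (Eventually.of_forall fun q => div_nonneg (hψ q) (Nat.cast_nonneg q)) ?_
        filter_upwards [hev] with q hq
        exact div_le_div_of_nonneg_right hq (Nat.cast_nonneg q)
      have h3 := (h1.rpow_const (p := s) (Or.inr hs.le))
      rwa [Real.zero_rpow hs.ne'] at h3
    filter_upwards [hae] with x hx δ hδ
    obtain ⟨N', hN'⟩ := eventually_atTop.1 (hlim.eventually (gt_mem_nhds hδ))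
    rw [← Nat.frequently_atTop_iff_infinite, frequently_atTop] at hx
    obtain ⟨q, hqN, hq0, hq⟩ := hx (max N N')
    have hqpos : (0 : ℝ) < q := by exact_mod_cast hq0
    have hsmall := hN' q ((le_max_right _ _).trans hqN)
    have hrs : 0 < (ψ q / q) ^ s := by
      have h1 : 0 < q * (ψ q / q) ^ s := (abs_nonneg _).trans_lt hq
      exact pos_of_mul_pos_right h1 hqpos.le
    have hr : 0 < ψ q / q := by
      rcases (div_nonneg (hψ q) hqpos.le).lt_or_eq with h | h
      · exact h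
      · rw [← h, Real.zero_rpow hs.ne'] at hrs
        exact absurd hrs (lt_irrefl _)
    refine ⟨(γ + round (q * x - γ)) / q, ψ q / q, hr, hsmall, ?_, ?_⟩
    · have h1 : x - (γ + round (q * x - γ)) / q = ((q * x - γ) - round (q * x - γ)) / q := by
        field_simp
        ring
      rw [h1, abs_div, abs_of_pos hqpos, div_lt_iff₀ hqpos]
      linarith
    · intro y hy
      rw [Metric.mem_ball, Real.dist_eq] at hy
      refine ⟨q, (le_max_left _ _).trans hqN, hq0, round (q * x - γ), ?_⟩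
      have h1 : (q * y - γ) - round (q * x - γ) = q * (y - (γ + round (q * x - γ)) / q) := by
        field_simp
        ring
      rw [h1, abs_mul, abs_of_pos hqpos]
      calc q * |y - (γ + round (q * x - γ)) / q| < q * (ψ q / q) := by gcongr
        _ = ψ q := by field_simp

/-- **Hausdorff form, countably many shifts and functions at once.** -/
theorem haus_many
    (hQ1 : ∀ γ : ℝ, ∀ ψ' : ℕ → ℝ, (∀ q, 0 ≤ ψ' q) →
      ¬ Summable (fun q : ℕ => ((Nat.totient q : ℝ) / q) * ψ' q) →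
      volume {x : ℝ | {q : ℕ | 0 < q ∧
        |(q * x - γ) - round (q * x - γ)| < ψ' q}.Infinite}ᶜ = 0)
    (hs : 0 < s) (hs1 : s < 1) (γ : ℕ → ℝ) (ψ : ℕ → ℕ → ℝ) (hψ : ∀ n q, 0 ≤ ψ n q)
    (hdiv : ∀ n, ¬ Summable (fun q : ℕ => (Nat.totient q : ℝ) * (ψ n q / q) ^ s))
    {a b : ℝ} (hab : a < b) :
    Measure.hausdorffMeasure s ({x : ℝ | ∀ n, {q : ℕ | 0 < q ∧
        |(q * x - γ n) - round (q * x - γ n)| < ψ n q}.Infinite} ∩ Ioo a b) = ∞ := by
  have hW : {x : ℝ | ∀ n, {q : ℕ | 0 < q ∧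
      |(q * x - γ n) - round (q * x - γ n)| < ψ n q}.Infinite} =
      ⋂ i : ℕ, UU (γ i.unpair.1) (ψ i.unpair.1) i.unpair.2 := by
    ext x
    rw [mem_iInter, mem_setOf_eq]
    have h1 : ∀ n, ({q : ℕ | 0 < q ∧
        |(q * x - γ n) - round (q * x - γ n)| < ψ n q}.Infinite ↔ ∀ N, x ∈ UU (γ n) (ψ n) N) := by
      intro n
      have := Set.ext_iff.1 (W_eq (γ n) (ψ n)) x
      rwa [mem_setOf_eq, mem_iInter] at this
    constructor
    · intro h i
      exact (h1 _).1 (h _) _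
    · intro h n
      rw [h1]
      intro N
      have := h (Nat.pair n N)
      rwa [Nat.unpair_pair] at this
  rw [hW]
  exact mtp hs hs1 (fun i => isOpen_UU _ _ _)
    (fun i => ae_UU _ (hQ1 _) _ (hψ _) hs (hdiv _) _) hab

end Vale.Agent.P028.H79
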