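import Vale.Agent.P028.H79.Content

/-!
# The mass transference principle on the line (helper79)

If `U i` are open sets of reals such that, for every `i`, almost every real lies in the ball of
radius `r ^ s` around the centre of a ball of arbitrarily small radius `r` contained in `U i`, then
the intersection of all the `U i` has infinite `s`-dimensional Hausdorff measure in every open
interval (`0 < s < 1`).
-/

set_option linter.all false

namespace Vale.Agent.P028.H79

open MeasureTheory Set Filter Topology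
open scoped ENNReal NNReal

variable {s : ℝ}

theorem Dc_sub_Dy (n : ℕ) (k : ℤ) : Dc (n + 2) (4 * k + 1) ⊆ Dy n k := by
  intro x hx
  rw [mem_Dy]
  unfold Dc at hx
  have h := two_pow_pos n
  have h1 := hx.1
  have h2 := hx.2
  rw [pow_add, div_le_iff₀ (by positivity)] at h1
  rw [pow_add, le_div_iff₀ (by positivity)] at h2
  push_cast at h1 h2
  constructor
  · rw [div_le_iff₀ h]
    nlinarith
  · rw [lt_div_iff₀ h]
    nlinarith

theorem Dy_sub (N : ℕ) : ∀ (n : ℕ) (k : ℤ) (i : ℕ), i < 2 ^ N →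
    Dy (n + N) (k * 2 ^ N + i) ⊆ Dy n k := by
  intro n k i hi x hx
  rw [mem_Dy] at hx ⊢
  have h := two_pow_pos n
  have hN := two_pow_pos N
  obtain ⟨h1, h2⟩ := hx
  rw [pow_add, div_le_iff₀ (by positivity)] at h1
  rw [pow_add, lt_div_iff₀ (by positivity)] at h2
  push_cast at h1 h2
  have hi' : (i : ℝ) + 1 ≤ 2 ^ N := by exact_mod_cast hi
  have hi0 : (0 : ℝ) ≤ i := Nat.cast_nonneg i
  constructor
  · rw [div_le_iff₀ h]
    have : (k : ℝ) * 2 ^ N ≤ x * 2 ^ n * 2 ^ N := by nlinarith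
    exact le_of_mul_le_mul_right this hN
  · rw [lt_div_iff₀ h]
    have : x * 2 ^ n * 2 ^ N < ((k : ℝ) + 1) * 2 ^ N := by nlinarith
    exact lt_of_mul_lt_mul_right this hN.le

/-- **Mass transference on the line.** -/
theorem mtp (hs : 0 < s) (hs1 : s < 1) {U : ℕ → Set ℝ} (hopen : ∀ i, IsOpen (U i))
    (hU : ∀ i, ∀ᵐ x : ℝ, ∀ δ : ℝ, 0 < δ → ∃ c r : ℝ, 0 < r ∧ r ^ s < δ ∧ |x - c| < r ^ s ∧
      Metric.ball c r ⊆ U i)
    {a b : ℝ} (hab : a < b) : Measure.hausdorffMeasure s ((⋂ i, U i) ∩ Ioo a b) = ∞ := by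
  classical
  have hfull : ∀ i n k, Mi s (U i) n k = g s n := fun i n k => Mi_full hs hs1 (hU i) n k
  set W : Set ℝ := ⋂ i, U i with hW
  have hWm : MeasurableSet W := MeasurableSet.iInter fun i => (hopen i).measurableSet
  obtain ⟨d, hd⟩ := Dc_sub_ball (c := (a + b) / 2) (r := (b - a) / 2) (x := (a + b) / 2)
    (Metric.mem_ball_self (by linarith)) 0
  set n1 := 0 + d
  set k1 := ⌊(2 : ℝ) ^ n1 * ((a + b) / 2)⌋
  have hsub1 : Dy n1 k1 ⊆ Ioo a b := by
    refine (Dy_subset_Dc n1 k1).trans (hd.trans ?_)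
    rw [Real.ball_eq_Ioo]
    exact Ioo_subset_Ioo (by linarith) (by linarith)
  have hN : ∀ N : ℕ, (2 : ℝ≥0∞) ^ N * g s (n1 + N + 2) ≤
      12 * Measure.hausdorffMeasure s (W ∩ Ioo a b) := by
    intro N
    set D : ℕ → Set ℝ := fun i => W ∩ Dc (n1 + N + 2) (4 * (k1 * 2 ^ N + i) + 1) with hD
    have hDm : ∀ i, MeasurableSet (D i) := fun i => hWm.inter (isCompact_Dc _ _).measurableSet
    have hDy : ∀ i, D i ⊆ Dy (n1 + N) (k1 * 2 ^ N + i) := fun i =>
      inter_subset_right.trans (Dc_sub_Dy _ _)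
    have hdisj : ((Finset.range (2 ^ N) : Finset ℕ) : Set ℕ).PairwiseDisjoint D := by
      intro i _ i' _ hne
      refine Disjoint.mono (hDy i) (hDy i') (Dy_disjoint _ ?_)
      intro h
      apply hne
      have : (i : ℤ) = i' := by linarith
      exact_mod_cast this
    have hun : (⋃ i ∈ Finset.range (2 ^ N), D i) ⊆ W ∩ Ioo a b := by
      refine iUnion₂_subset fun i hi => ?_
      refine subset_inter inter_subset_left ?_
      exact (hDy i).trans ((Dy_sub N n1 k1 i (Finset.mem_range.1 hi)).trans hsub1)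
    calc (2 : ℝ≥0∞) ^ N * g s (n1 + N + 2)
        = ∑ i ∈ Finset.range (2 ^ N), g s (n1 + N + 2) := by
          rw [Finset.sum_const, Finset.card_range, nsmul_eq_mul]
          push_cast
          rfl
      _ ≤ ∑ i ∈ Finset.range (2 ^ N), 12 * Measure.hausdorffMeasure s (D i) :=
          Finset.sum_le_sum fun i _ => content hs hs1.le hfull _ _
      _ = 12 * Measure.hausdorffMeasure s (⋃ i ∈ Finset.range (2 ^ N), D i) := by
          rw [measure_biUnion_finset hdisj fun i _ => hDm i, Finset.mul_sum]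
      _ ≤ _ := by gcongr
  by_contra hne
  have hfin : 12 * Measure.hausdorffMeasure s (W ∩ Ioo a b) ≠ ∞ :=
    ENNReal.mul_ne_top (by norm_num) hne
  set M : ℝ := (12 * Measure.hausdorffMeasure s (W ∩ Ioo a b)).toReal with hM
  have h1 : ∀ N : ℕ, L (n1 + 2) ^ s * ((2 : ℝ) ^ (1 - s)) ^ N ≤ M := by
    intro N
    have h2 := ENNReal.toReal_mono hfin (hN N)
    refine le_trans (le_of_eq ?_) h2
    rw [g_eq, ENNReal.toReal_mul, ENNReal.toReal_ofReal (Real.rpow_nonneg (L_pos _).le _),
      ENNReal.toReal_pow]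
    have h3 : L (n1 + N + 2) = L (n1 + 2) * L N := by
      unfold L
      rw [← pow_add]
      congr 1
      ring
    rw [h3, Real.mul_rpow (L_pos _).le (L_pos _).le]
    have h4 : L N ^ s * 2 ^ N = ((2 : ℝ) ^ (1 - s)) ^ N := by
      unfold L
      rw [← Real.rpow_natCast ((2 : ℝ) ^ (1 - s)) N, ← Real.rpow_mul (by norm_num),
        ← Real.rpow_natCast (1 / 2) N, ← Real.rpow_mul (by norm_num), one_div,
        Real.inv_rpow (by norm_num), ← Real.rpow_neg (by norm_num), ← Real.rpow_natCast 2 N,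
        ← Real.rpow_add (by norm_num)]
      congr 1
      ring
    rw [← h4]
    simp only [ENNReal.toReal_ofNat]
    ring
  have h5 : (1 : ℝ) < 2 ^ (1 - s) := Real.one_lt_rpow (by norm_num) (by linarith)
  obtain ⟨N, hNN⟩ := ((tendsto_pow_atTop_atTop_of_one_lt h5).eventually_gt_atTop
    (M / L (n1 + 2) ^ s)).exists
  have h6 : 0 < L (n1 + 2) ^ s := Real.rpow_pos_of_pos (L_pos _) _
  rw [div_lt_iff₀ h6] at hNN
  have := h1 N
  linarith

end Vale.Agent.P028.H79
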