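import Mathlib

/-!
# The mass transference principle on the line: dyadic trees (helper79)

`Dy n k = [k / 2^n, (k+1) / 2^n)`, `Dc n k` its closure, `g s n = |Dy n k|^s`.  For a set `A`,
`MM s A j n k` is the cheapest way to cover the closed dyadic intervals of level `≤ n + j` contained
in `A` and in `Dy n k` by dyadic intervals contained in `Dy n k`, and `Mi` is its limit.
-/

set_option linter.all false

namespace Vale.Agent.P028.H79

open MeasureTheory Set Filter Topology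
open scoped ENNReal

/-- half-open dyadic interval -/
def Dy (n : ℕ) (k : ℤ) : Set ℝ := {x : ℝ | ⌊(2 : ℝ) ^ n * x⌋ = k}

/-- closed dyadic interval -/
def Dc (n : ℕ) (k : ℤ) : Set ℝ := Icc ((k : ℝ) / 2 ^ n) (((k : ℝ) + 1) / 2 ^ n)

theorem two_pow_pos (n : ℕ) : (0 : ℝ) < 2 ^ n := pow_pos two_pos n

theorem mem_Dy {n : ℕ} {k : ℤ} {x : ℝ} :
    x ∈ Dy n k ↔ (k : ℝ) / 2 ^ n ≤ x ∧ x < ((k : ℝ) + 1) / 2 ^ n := by
  unfold Dy
  rw [mem_setOf_eq, Int.floor_eq_iff, div_le_iff₀ (two_pow_pos n), lt_div_iff₀ (two_pow_pos n),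
    mul_comm x]

theorem Dy_eq (n : ℕ) (k : ℤ) : Dy n k = Ico ((k : ℝ) / 2 ^ n) (((k : ℝ) + 1) / 2 ^ n) := by
  ext x
  rw [mem_Dy, mem_Ico]

theorem Dy_subset_Dc (n : ℕ) (k : ℤ) : Dy n k ⊆ Dc n k := by
  rw [Dy_eq]
  exact Ico_subset_Icc_self

theorem mem_Dy_floor (n : ℕ) (x : ℝ) : x ∈ Dy n ⌊(2 : ℝ) ^ n * x⌋ := rfl

theorem measurableSet_Dy (n : ℕ) (k : ℤ) : MeasurableSet (Dy n k) := by
  rw [Dy_eq]
  exact measurableSet_Ico

theorem floor_succ (n : ℕ) (x : ℝ) : ⌊(2 : ℝ) ^ (n + 1) * x⌋ = 2 * ⌊(2 : ℝ) ^ n * x⌋ ∨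
    ⌊(2 : ℝ) ^ (n + 1) * x⌋ = 2 * ⌊(2 : ℝ) ^ n * x⌋ + 1 := by
  have h0 : (2 : ℝ) ^ (n + 1) * x = 2 * ((2 : ℝ) ^ n * x) := by ring
  rw [h0]
  set y := (2 : ℝ) ^ n * x
  have h1 := Int.floor_le y
  have h2 := Int.lt_floor_add_one y
  have h3 : 2 * ⌊y⌋ ≤ ⌊2 * y⌋ := Int.le_floor.2 (by push_cast; linarith)
  have h4 : ⌊2 * y⌋ < 2 * ⌊y⌋ + 2 := Int.floor_lt.2 (by push_cast; linarith)
  omega

theorem Dy_split (n : ℕ) (k : ℤ) : Dy n k = Dy (n + 1) (2 * k) ∪ Dy (n + 1) (2 * k + 1) := by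
  ext x
  unfold Dy
  simp only [mem_setOf_eq, mem_union]
  rcases floor_succ n x with h | h <;> rw [h] <;> omega

theorem Dy_disjoint (n : ℕ) {k k' : ℤ} (h : k ≠ k') : Disjoint (Dy n k) (Dy n k') :=
  Set.disjoint_left.2 fun x h1 h2 => h (h1.symm.trans h2)

/-- length -/
noncomputable def L (n : ℕ) : ℝ := (1 / 2) ^ n

theorem L_pos (n : ℕ) : 0 < L n := by unfold L; positivity

theorem L_le_one (n : ℕ) : L n ≤ 1 := pow_le_one₀ (by norm_num) (by norm_num)

theorem L_succ (n : ℕ) : L n = L (n + 1) + L (n + 1) := by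
  unfold L
  rw [pow_succ]
  ring

theorem L_anti {m n : ℕ} (h : m ≤ n) : L n ≤ L m :=
  pow_le_pow_of_le_one (by norm_num) (by norm_num) h

theorem volume_Dy (n : ℕ) (k : ℤ) : volume (Dy n k) = ENNReal.ofReal (L n) := by
  rw [Dy_eq, Real.volume_Ico]
  congr 1
  unfold L
  rw [one_div, inv_pow]
  field_simp
  ring

/-- cost of a dyadic interval of level `n` -/
noncomputable def g (s : ℝ) (n : ℕ) : ℝ≥0∞ := ENNReal.ofReal (L n) ^ s

theorem g_ne_top (s : ℝ) (n : ℕ) (hs : 0 ≤ s) : g s n ≠ ∞ :=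
  ENNReal.rpow_ne_top_of_nonneg hs ENNReal.ofReal_ne_top

theorem g_pos (s : ℝ) (n : ℕ) : 0 < g s n :=
  ENNReal.rpow_pos (ENNReal.ofReal_pos.2 (L_pos n)) ENNReal.ofReal_ne_top

theorem g_eq (s : ℝ) (n : ℕ) : g s n = ENNReal.ofReal (L n ^ s) :=
  ENNReal.ofReal_rpow_of_pos (L_pos n)

theorem g_anti {s : ℝ} (hs : 0 ≤ s) {m n : ℕ} (h : m ≤ n) : g s n ≤ g s m :=
  ENNReal.rpow_le_rpow (ENNReal.ofReal_le_ofReal (L_anti h)) hs

open Classical in
/-- cost of covering, depth `j` -/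
noncomputable def MM (s : ℝ) (A : Set ℝ) : ℕ → ℕ → ℤ → ℝ≥0∞
  | 0, n, k => if Dc n k ⊆ A then g s n else 0
  | j + 1, n, k => if Dc n k ⊆ A then g s n else
      min (g s n) (MM s A j (n + 1) (2 * k) + MM s A j (n + 1) (2 * k + 1))

variable {s : ℝ} {A B : Set ℝ} {j n : ℕ} {k : ℤ}

theorem MM_of_sub (h : Dc n k ⊆ A) : MM s A j n k = g s n := by
  cases j <;> simp only [MM, if_pos h]

theorem MM_zero_of_not (h : ¬ Dc n k ⊆ A) : MM s A 0 n k = 0 := by
  simp only [MM, if_neg h]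

theorem MM_succ_of_not (h : ¬ Dc n k ⊆ A) : MM s A (j + 1) n k =
    min (g s n) (MM s A j (n + 1) (2 * k) + MM s A j (n + 1) (2 * k + 1)) := by
  simp only [MM, if_neg h]

theorem MM_le (j n : ℕ) (k : ℤ) : MM s A j n k ≤ g s n := by
  by_cases h : Dc n k ⊆ A
  · rw [MM_of_sub h]
  · cases j with
    | zero => rw [MM_zero_of_not h]; exact bot_le
    | succ j => rw [MM_succ_of_not h]; exact min_le_left _ _

theorem MM_mono (j : ℕ) : ∀ (n : ℕ) (k : ℤ), MM s A j n k ≤ MM s A (j + 1) n k := by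
  induction j with
  | zero =>
    intro n k
    by_cases h : Dc n k ⊆ A
    · rw [MM_of_sub h, MM_of_sub h]
    · rw [MM_zero_of_not h]
      exact bot_le
  | succ j ih =>
    intro n k
    by_cases h : Dc n k ⊆ A
    · rw [MM_of_sub h, MM_of_sub h]
    · rw [MM_succ_of_not h, MM_succ_of_not h]
      exact min_le_min le_rfl (add_le_add (ih _ _) (ih _ _))

theorem MM_monotone (s : ℝ) (A : Set ℝ) (n : ℕ) (k : ℤ) : Monotone fun j => MM s A j n k :=
  monotone_nat_of_le_succ fun j => MM_mono j n k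

/-- if the intervals of level `≤ n + j` in `A` are in `B` -/
theorem MM_le_of (j : ℕ) : ∀ (n : ℕ) (k : ℤ),
    (∀ i ≤ j, ∀ k' : ℤ, Dc (n + i) k' ⊆ A → Dc (n + i) k' ⊆ B) → MM s A j n k ≤ MM s B j n k := by
  induction j with
  | zero =>
    intro n k h
    by_cases hA : Dc n k ⊆ A
    · rw [MM_of_sub hA, MM_of_sub (show Dc n k ⊆ B from h 0 le_rfl k hA)]
    · rw [MM_zero_of_not hA]
      exact bot_le
  | succ j ih =>
    intro n k h
    by_cases hB : Dc n k ⊆ B
    · rw [MM_of_sub hB]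
      exact MM_le _ _ _
    · have hA : ¬ Dc n k ⊆ A := fun hA => hB (h 0 (Nat.zero_le _) k hA)
      rw [MM_succ_of_not hA, MM_succ_of_not hB]
      have h' : ∀ i ≤ j, ∀ k' : ℤ, Dc (n + 1 + i) k' ⊆ A → Dc (n + 1 + i) k' ⊆ B := by
        intro i hi k' hk
        have := h (i + 1) (by omega) k'
        rw [show n + (i + 1) = n + 1 + i by ring] at this
        exact this hk
      exact min_le_min le_rfl (add_le_add (ih _ _ h') (ih _ _ h'))

/-- the limit -/
noncomputable def Mi (s : ℝ) (A : Set ℝ) (n : ℕ) (k : ℤ) : ℝ≥0∞ := ⨆ j, MM s A j n k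

theorem MM_le_Mi (j n : ℕ) (k : ℤ) : MM s A j n k ≤ Mi s A n k := le_iSup (fun j => MM s A j n k) j

theorem Mi_le (n : ℕ) (k : ℤ) : Mi s A n k ≤ g s n := iSup_le fun j => MM_le j n k

theorem Mi_of_sub (h : Dc n k ⊆ A) : Mi s A n k = g s n :=
  le_antisymm (Mi_le n k) ((MM_of_sub (j := 0) h).symm.le.trans (MM_le_Mi 0 n k))

theorem Mi_of_not (h : ¬ Dc n k ⊆ A) : Mi s A n k =
    min (g s n) (Mi s A (n + 1) (2 * k) + Mi s A (n + 1) (2 * k + 1)) := by
  refine le_antisymm (iSup_le fun j => ?_) ?_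
  · cases j with
    | zero => rw [MM_zero_of_not h]; exact bot_le
    | succ j =>
      rw [MM_succ_of_not h]
      exact min_le_min le_rfl (add_le_add (MM_le_Mi _ _ _) (MM_le_Mi _ _ _))
  · unfold Mi
    rw [ENNReal.iSup_add_iSup_of_monotone (MM_monotone s A _ _) (MM_monotone s A _ _),
      inf_iSup_eq]
    refine iSup_le fun j => ?_
    refine le_trans (le_of_eq ?_) (le_iSup (fun j => MM s A j n k) (j + 1))
    rw [MM_succ_of_not h]

/-- restriction of `U` to a set `F` -/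
theorem MM_le_Mi_inter (hU : ∀ n k, Mi s B n k = g s n) (j : ℕ) : ∀ (n : ℕ) (k : ℤ),
    MM s A j n k ≤ Mi s (A ∩ B) n k := by
  have hin : ∀ (j n : ℕ) (k : ℤ), Dc n k ⊆ A → MM s B j n k ≤ Mi s (A ∩ B) n k := by
    intro j
    induction j with
    | zero =>
      intro n k h
      by_cases hB : Dc n k ⊆ B
      · rw [Mi_of_sub (subset_inter h hB)]
        exact MM_le _ _ _
      · rw [MM_zero_of_not hB]
        exact bot_le
    | succ j ih =>
      intro n k h
      by_cases hB : Dc n k ⊆ B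
      · rw [Mi_of_sub (subset_inter h hB)]
        exact MM_le _ _ _
      · have hAB : ¬ Dc n k ⊆ A ∩ B := fun hh => hB (hh.trans inter_subset_right)
        rw [MM_succ_of_not hB, Mi_of_not hAB]
        have h1 : Dc (n + 1) (2 * k) ⊆ Dc n k := by
          unfold Dc
          refine Icc_subset_Icc (le_of_eq ?_) ?_
          · push_cast
            rw [pow_succ]
            field_simp
          · push_cast
            rw [pow_succ, div_le_div_iff₀ (by positivity) (by positivity)]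
            have := two_pow_pos n
            nlinarith
        have h2 : Dc (n + 1) (2 * k + 1) ⊆ Dc n k := by
          unfold Dc
          refine Icc_subset_Icc ?_ (le_of_eq ?_)
          · push_cast
            rw [pow_succ, div_le_div_iff₀ (by positivity) (by positivity)]
            have := two_pow_pos n
            nlinarith
          · push_cast
            rw [pow_succ]
            field_simp
            ring
        exact min_le_min le_rfl (add_le_add (ih _ _ (h1.trans h)) (ih _ _ (h2.trans h)))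
  have hfull : ∀ (n : ℕ) (k : ℤ), Dc n k ⊆ A → Mi s (A ∩ B) n k = g s n := by
    intro n k h
    refine le_antisymm (Mi_le n k) ?_
    rw [← hU n k]
    exact iSup_le fun j => hin j n k h
  induction j with
  | zero =>
    intro n k
    by_cases h : Dc n k ⊆ A
    · rw [hfull n k h]
      exact MM_le _ _ _
    · rw [MM_zero_of_not h]
      exact bot_le
  | succ j ih =>
    intro n k
    by_cases h : Dc n k ⊆ A
    · rw [hfull n k h]
      exact MM_le _ _ _
    · have hAB : ¬ Dc n k ⊆ A ∩ B := fun hh => h (hh.trans inter_subset_left)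
      rw [MM_succ_of_not h, Mi_of_not hAB]
      exact min_le_min le_rfl (add_le_add (ih _ _) (ih _ _))

end Vale.Agent.P028.H79
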